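import Mathlib
import Vale.Agent.Lib.P209.Defs
import Vale.Agent.Lib.P209.Packings

/-! Siegel-Yao Conjecture A: the packing (sufficiency) half for all families of at most `2^n` balls,
and for arbitrarily many balls when all but one of them are small compared with the target. -/

namespace Vale.Agent.Results.P209.FewBalls

open Vale.Agent.P209

theorem result :
    (∀ n k : ℕ, 1 ≤ n → 1 ≤ k → k ≤ 2 ^ n →
      ∀ (R : ℝ) (r : Fin k → ℝ), 0 < R → (∀ i, 0 < r i) →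
        ∑ i, r i ^ n < R ^ n → (∀ i j, i ≠ j → r i + r j < R) →
        BallsEmbed n k r R) ∧
    (∀ n k m : ℕ, 1 ≤ n → 1 ≤ m → k ≤ m ^ n - (m - 1) ^ n + 1 →
      ∀ (R : ℝ) (r : Fin k → ℝ) (i₀ : Fin k), 0 < R → (∀ i, 0 < r i) →
        r i₀ < R → (∀ i, i ≠ i₀ → r i < R / m) → (∀ i, i ≠ i₀ → r i + r i₀ < R) →
        BallsEmbed n k r R) :=
  ⟨fun _ _ _ hk1 hk _ _ hR hr hvol h2 => two_pow_balls hk1 hk hR hr hvol h2,
    fun _ _ _ _ hm hk _ _ i₀ hR hr h0 h1 h2 => few_balls hm hk hR hr i₀ h0 h1 h2⟩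

end Vale.Agent.Results.P209.FewBalls
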