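import Vale.Agent.Lib.P209S.Main

/-! # P209: packing a ball by at most `2 ^ n` balls of arbitrary sizes -/

namespace Vale.Agent.Results.P209.UpToTwoPow

open Vale.Agent.P209S

/-- Siegel-Yao Conjecture A, existence of the packing, for at most `2 ^ n` balls of arbitrary
sizes in `ℂ^n`; and for more balls when one of them may be large: up to `m ^ n - (m - 1) ^ n + 1`
balls, all but one of capacity less than `R / m`, where the two-ball inequalities with the
exceptional ball suffice. -/
theorem result (n k : ℕ) (hn : 1 ≤ n) (hk : 1 ≤ k) (R : ℝ) (r : Fin k → ℝ) (hR : 0 < R)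
    (hr : ∀ i, 0 < r i) :
    (k ≤ 2 ^ n → ∑ i, r i ^ n < R ^ n → (∀ i j, i < j → r i + r j < R) → Packs n k r R) ∧
    (∀ m : ℕ, 1 ≤ m → k ≤ m ^ n - (m - 1) ^ n + 1 → ∀ i₀, r i₀ < R →
      (∀ i, i ≠ i₀ → r i < R / m ∧ r i + r i₀ < R) → Packs n k r R) := by
  refine ⟨fun hk2 hvol h2 => packs_of_ballsEmbed hr
    (Vale.Agent.P209.two_pow_balls hk hk2 hR hr hvol fun i j hij => ?_),
    fun m hm hkm i₀ h0 h1 => packs_of_ballsEmbed hr
      (Vale.Agent.P209.few_balls hm hkm hR hr i₀ h0 (fun i hi => (h1 i hi).1)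
        fun i hi => (h1 i hi).2)⟩
  rcases lt_or_gt_of_ne hij with h | h
  · exact h2 i j h
  · rw [add_comm]
    exact h2 j i h

end Vale.Agent.Results.P209.UpToTwoPow
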